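import Vale.Agent.P253.H445.Torus

/-!
P253: closed subgroups of a torus without invariant monomials contain a circle with positive
integral weights.
-/

open Set Metric Filter Topology

noncomputable section

namespace Vale.Agent.P253.H445

variable {n : ℕ} {G : Set (Fin n → ℝ)} (hcl : IsClosed G)
  (hadd : ∀ x ∈ G, ∀ y ∈ G, x + y ∈ G) (hint : ∀ z : Fin n → ℤ, iv z ∈ G)

include hcl in
/-- a positive vector of the Lie algebra can be chosen integral -/
theorem exists_int_mem {m : Fin n → ℝ} (hm : m ∈ lieD G hadd hint) (hpos : ∀ j, 0 < m j) :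
    ∃ z : Fin n → ℤ, iv z ∈ lieD G hadd hint ∧ ∀ j, 0 < z j := by
  obtain ⟨δ, hδ, hsm⟩ := exists_small hcl hadd hint
  obtain ⟨c, hc, hcm⟩ : ∃ c : ℝ, 0 < c ∧ ∀ j, c ≤ m j := by
    rcases isEmpty_or_nonempty (Fin n) with h | h
    · exact ⟨1, one_pos, fun j => h.elim j⟩
    · obtain ⟨i, hi⟩ := Finite.exists_min m
      exact ⟨m i, hpos i, hi⟩
  obtain ⟨q, hq, z, hz⟩ := exists_approx m (lt_min hδ hc)
  have hqm : (q : ℝ) • m ∈ G := (mem_lieD hadd hint).1 hm q
  have h1 : (q : ℝ) • m - iv z ∈ lieD G hadd hint :=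
    hsm _ (sub_mem hcl hadd hint hqm (hint z)) (hz.trans_le (min_le_left _ _))
  refine ⟨z, ?_, fun j => ?_⟩
  · have h2 := Submodule.sub_mem _ (Submodule.smul_mem _ (q : ℝ) hm) h1
    rwa [sub_sub_cancel] at h2
  · have h2 : |(q : ℝ) * m j - z j| < c := by
      have := (norm_le_pi_norm ((q : ℝ) • m - iv z) j).trans_lt (hz.trans_le (min_le_right _ _))
      simpa [iv, Real.norm_eq_abs] using this
    have h3 := (abs_lt.1 h2).2
    have hq' : (1 : ℝ) ≤ q := by exact_mod_cast hq
    have h4 : m j ≤ (q : ℝ) * m j := by nlinarith [hpos j]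
    have h5 : (0 : ℝ) < z j := by linarith [hcm j]
    exact_mod_cast h5

/-- the group of the real exponents of a closed submonoid of the torus -/
theorem exists_group {S : Set (Fin n → ℂ)} (h1 : (1 : Fin n → ℂ) ∈ S)
    (hmul : ∀ x ∈ S, ∀ y ∈ S, x * y ∈ S) :
    ∃ G : Set (Fin n → ℝ), IsClosed G ∧ (∀ x ∈ G, ∀ y ∈ G, x + y ∈ G) ∧
      (∀ z : Fin n → ℤ, iv z ∈ G) ∧ ∀ y : Fin n → ℝ, y ∈ G ↔
        (fun j => Complex.exp (2 * Real.pi * y j * Complex.I)) ∈ closure S := by
  set ex : (Fin n → ℝ) → (Fin n → ℂ) := fun y j => Complex.exp (2 * Real.pi * y j * Complex.I)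
    with hex
  have hexc : Continuous ex := by fun_prop
  refine ⟨ex ⁻¹' closure S, isClosed_closure.preimage hexc, fun x hx y hy => ?_, fun z => ?_,
    fun y => Iff.rfl⟩
  · have h2 : ex (x + y) = ex x * ex y := by
      funext j
      simp only [hex, Pi.mul_apply, Pi.add_apply]
      rw [← Complex.exp_add]
      congr 1
      push_cast
      ring
    show ex (x + y) ∈ closure S
    rw [h2]
    exact map_mem_closure₂ continuous_mul hx hy hmul
  · have h2 : ex (iv z) = 1 := by
      funext j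
      simp only [hex, iv, Pi.one_apply]
      rw [Complex.exp_eq_one_iff]
      exact ⟨z j, by push_cast; ring⟩
    show ex (iv z) ∈ closure S
    rw [h2]
    exact subset_closure h1

/-- **Tori without invariant monomials, integral form.**  A multiplicative submonoid `S` of the
torus, without a nonconstant monomial `x ^ a` which is `1` on `S`, has in its closure a circle
`t ↦ (exp (i k_j t))` with all weights `k_j` positive integers. -/
theorem exists_int_flow {n : ℕ} {S : Set (Fin n → ℂ)} (hn : ∀ x ∈ S, ∀ j, ‖x j‖ = 1)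
    (h1 : (1 : Fin n → ℂ) ∈ S) (hmul : ∀ x ∈ S, ∀ y ∈ S, x * y ∈ S)
    (hinv : ∀ a : Fin n → ℕ, a ≠ 0 → ∃ x ∈ S, ∏ j, x j ^ a j ≠ 1) :
    ∃ k : Fin n → ℕ, (∀ j, 0 < k j) ∧
      ∀ t : ℝ, (fun j => Complex.exp (t * k j * Complex.I)) ∈ closure S := by
  obtain ⟨m, hm0, hm⟩ := exists_pos_flow hn h1 hmul hinv
  obtain ⟨G, hcl, hadd, hint, hG⟩ := exists_group h1 hmul
  have hpi : (Real.pi : ℂ) ≠ 0 := Complex.ofReal_ne_zero.2 Real.pi_ne_zero
  have hmD : m ∈ lieD G hadd hint := by
    rw [mem_lieD]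
    intro t
    rw [hG]
    have h2 := hm (2 * Real.pi * t)
    have h3 : (fun j => Complex.exp (2 * Real.pi * ((t • m) j : ℝ) * Complex.I)) =
        fun j => Complex.exp (((2 * Real.pi * t : ℝ) : ℂ) * m j * Complex.I) := by
      funext j
      congr 1
      simp only [Pi.smul_apply, smul_eq_mul]
      push_cast
      ring
    rw [h3]
    exact h2
  obtain ⟨z, hzD, hz0⟩ := exists_int_mem hcl hadd hint hmD hm0
  refine ⟨fun j => (z j).toNat, fun j => ?_, fun t => ?_⟩
  · have := hz0 j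
    show 0 < (z j).toNat
    omega
  have h2 := (hG _).1 ((mem_lieD hadd hint).1 hzD (t / (2 * Real.pi)))
  have h3 : (fun j => Complex.exp (2 * Real.pi * (((t / (2 * Real.pi)) • iv z) j : ℝ) *
      Complex.I)) = fun j => Complex.exp (t * ((z j).toNat : ℂ) * Complex.I) := by
    funext j
    congr 1
    have h4 : ((z j).toNat : ℂ) = (z j : ℂ) := by
      have := Int.toNat_of_nonneg (hz0 j).le
      exact_mod_cast congrArg (Int.cast : ℤ → ℂ) this
    rw [h4]
    simp only [Pi.smul_apply, smul_eq_mul, iv]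
    push_cast
    field_simp
  rw [h3] at h2
  exact h2

end Vale.Agent.P253.H445
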