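import Vale.Agent.P253.H445.Osg0

/-!
P253: Osgood's theorem: an injective holomorphic map between open sets of spaces of the same
dimension has an injective differential everywhere.
-/

open scoped Topology ContDiff
open Set Metric Filter Module

set_option linter.unusedSectionVars false

noncomputable section

namespace Vale.Agent.P253.H445

universe u v

/-- Osgood's theorem in dimension `n` -/
def OsgP (n : ℕ) : Prop :=
  ∀ (E : Type u) [NormedAddCommGroup E] [NormedSpace ℂ E] [FiniteDimensional ℂ E]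
    (F : Type v) [NormedAddCommGroup F] [NormedSpace ℂ F] [FiniteDimensional ℂ F],
    finrank ℂ E = n → finrank ℂ F = n → ∀ (f : E → F) (a : E),
    (∀ᶠ z in 𝓝 a, DifferentiableAt ℂ f z) → (∃ V ∈ 𝓝 a, InjOn f V) →
    Function.Injective (fderiv ℂ f a)

theorem osg_one : OsgP.{u, v} 1 := by
  intro E _ _ _ F _ _ _ hE hF f a hf hinj
  obtain ⟨e, he0, he⟩ := finrank_eq_one_iff'.1 hE
  set θ : F ≃L[ℂ] ℂ := ContinuousLinearEquiv.ofFinrankEq (by rw [hF, finrank_self]) with hθ
  have hc : Continuous (fun t : ℂ => a + t • e) := by fun_prop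
  have hct : Tendsto (fun t : ℂ => a + t • e) (𝓝 0) (𝓝 a) := by
    have h1 := hc.tendsto 0
    rwa [zero_smul, add_zero] at h1
  have hl : ∀ t : ℂ, HasDerivAt (fun t : ℂ => a + t • e) e t := by
    intro t
    have h1 := ((hasDerivAt_id t).smul_const e).const_add a
    simpa using h1
  have h1 := one_dim (g := fun t : ℂ => θ (f (a + t • e))) (a := 0) ?_ ?_
  · have hfa : HasFDerivAt f (fderiv ℂ f a) (a + (0:ℂ) • e) := by
      rw [zero_smul, add_zero]
      exact hf.self_of_nhds.hasFDerivAt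
    have h2 : HasDerivAt (fun t : ℂ => f (a + t • e)) (fderiv ℂ f a e) 0 :=
      hfa.comp_hasDerivAt 0 (hl 0)
    have h3 : HasDerivAt (fun t : ℂ => θ (f (a + t • e))) (θ (fderiv ℂ f a e)) 0 :=
      (θ : F →L[ℂ] ℂ).hasFDerivAt.comp_hasDerivAt 0 h2
    rw [h3.deriv] at h1
    refine (injective_iff_map_eq_zero _).2 fun x hx => ?_
    obtain ⟨c, rfl⟩ := he x
    rw [map_smul, smul_eq_zero] at hx
    rcases hx with hx | hx
    · rw [hx, zero_smul]
    · rw [hx, map_zero] at h1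
      exact absurd rfl h1
  · filter_upwards [hct.eventually hf] with t ht
    have h2 : DifferentiableAt ℂ (fun t : ℂ => f (a + t • e)) t :=
      DifferentiableAt.comp t (g := f) (f := fun t : ℂ => a + t • e) ht (hl t).differentiableAt
    exact (θ : F →L[ℂ] ℂ).differentiableAt.comp t h2
  · obtain ⟨V, hV, hVi⟩ := hinj
    refine ⟨_, hct.eventually hV, ?_⟩
    intro s hs t ht hst
    have h2 := hVi hs ht (θ.injective hst)
    have h3 : s • e = t • e := add_left_cancel h2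
    have h4 : (s - t) • e = 0 := by rw [sub_smul, h3, sub_self]
    rcases smul_eq_zero.1 h4 with h5 | h5
    · exact sub_eq_zero.1 h5
    · exact absurd h5 he0

theorem finrank_ker {E : Type*} [NormedAddCommGroup E] [NormedSpace ℂ E] [FiniteDimensional ℂ E]
    {n : ℕ} (hE : finrank ℂ E = n + 1) (D : E →L[ℂ] ℂ) {v : E} (hv : D v = 1) :
    finrank ℂ (LinearMap.ker D.toLinearMap) = n := by
  have h1 := D.toLinearMap.finrank_range_add_finrank_ker
  have h2 : LinearMap.range D.toLinearMap = ⊤ := by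
    rw [LinearMap.range_eq_top]
    intro c
    exact ⟨c • v, by simp [hv]⟩
  rw [h2, finrank_top, finrank_self, hE] at h1
  omega

/-- if the differential is not zero, slicing reduces the dimension -/
theorem slice_step {n : ℕ} (ih : OsgP.{u, v} n) {E : Type u} [NormedAddCommGroup E]
    [NormedSpace ℂ E] [FiniteDimensional ℂ E] {F : Type v} [NormedAddCommGroup F]
    [NormedSpace ℂ F] [FiniteDimensional ℂ F] (hE : finrank ℂ E = n + 1)
    (hF : finrank ℂ F = n + 1) {f : E → F} {a : E} (hf : ∀ᶠ z in 𝓝 a, DifferentiableAt ℂ f z)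
    (hinj : ∃ V ∈ 𝓝 a, InjOn f V) (h0 : fderiv ℂ f a ≠ 0) :
    Function.Injective (fderiv ℂ f a) := by
  obtain ⟨x, hx⟩ : ∃ x, fderiv ℂ f a x ≠ 0 := by
    by_contra h
    push Not at h
    exact h0 (ContinuousLinearMap.ext h)
  set A := fderiv ℂ f a with hA
  obtain ⟨ℓ, hℓ⟩ := SeparatingDual.exists_eq_one (R := ℂ) hx
  set φ : E → ℂ := fun z => ℓ (f z) with hφ
  have hφd : ∀ᶠ z in 𝓝 a, DifferentiableAt ℂ φ z :=
    hf.mono fun z hz => ℓ.differentiableAt.comp z hz
  have hAd : HasFDerivAt f A a := hf.self_of_nhds.hasFDerivAt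
  set D : E →L[ℂ] ℂ := ℓ.comp A with hDdef
  have hD : HasFDerivAt φ D a := ℓ.hasFDerivAt.comp a hAd
  have hDx : D x = 1 := hℓ
  let K : Submodule ℂ E := LinearMap.ker D.toLinearMap
  obtain ⟨T, has, hTa, hT1, hTd, hTK⟩ : ∃ T : OpenPartialHomeomorph E (ℂ × K),
      a ∈ T.source ∧ T a = 0 ∧ (∀ z, (T z).1 = φ z - φ a) ∧
      (∀ᶠ y in 𝓝 (0 : ℂ × K), DifferentiableAt ℂ T.symm y) ∧
      HasFDerivAt (fun w : K => T.symm (0, w)) K.subtypeL 0 := straight hφd hD hDx
  set π := kerP ℓ (A x) hℓ with hπ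
  have h0t : (0 : ℂ × K) ∈ T.target := by
    rw [← hTa]
    exact T.map_source has
  have hTs0 : T.symm 0 = a := by
    rw [← hTa]
    exact T.left_inv has
  have hi : Tendsto (fun w : K => ((0 : ℂ), w)) (𝓝 0) (𝓝 0) :=
    (Continuous.prodMk_right (0 : ℂ)).tendsto (0 : K)
  have hcont : Tendsto (fun w : K => T.symm (0, w)) (𝓝 0) (𝓝 a) := by
    have h1 := (T.continuousAt_symm h0t).tendsto
    rw [hTs0] at h1
    exact h1.comp hi
  have hdif : ∀ᶠ w : K in 𝓝 0, DifferentiableAt ℂ (fun w : K => T.symm (0, w)) w := by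
    filter_upwards [hi.eventually hTd] with w hw
    exact DifferentiableAt.comp w (g := T.symm) (f := fun w : K => ((0 : ℂ), w)) hw
      (ContinuousLinearMap.inr ℂ ℂ K).differentiableAt
  set g : K → LinearMap.ker ℓ.toLinearMap := fun w => π (f (T.symm (0, w)) - f a) with hg
  have hgd : ∀ᶠ w in 𝓝 (0 : K), DifferentiableAt ℂ g w := by
    filter_upwards [hdif, hcont.eventually hf] with w hw1 hw2
    have h1 : DifferentiableAt ℂ (fun w : K => f (T.symm (0, w))) w :=
      DifferentiableAt.comp w (g := f) (f := fun w : K => T.symm (0, w)) hw2 hw1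
    exact π.differentiableAt.comp w (h1.sub_const _)
  obtain ⟨V, hV, hVi⟩ := hinj
  have hN : {w : K | ((0 : ℂ), w) ∈ T.target ∧ T.symm (0, w) ∈ V} ∈ 𝓝 (0 : K) :=
    inter_mem (hi.eventually (T.open_target.mem_nhds h0t)) (hcont.eventually hV)
  have hgi : ∃ N ∈ 𝓝 (0 : K), InjOn g N := by
    refine ⟨_, hN, ?_⟩
    have hker : ∀ w : K, ((0 : ℂ), w) ∈ T.target → ℓ (f (T.symm (0, w)) - f a) = 0 := by
      intro w hw
      have h1 := hT1 (T.symm (0, w))
      rw [T.right_inv hw] at h1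
      rw [map_sub]
      exact h1.symm
    rintro w₁ ⟨h1, h2⟩ w₂ ⟨h3, h4⟩ h12
    have h5 : (g w₁ : F) = (g w₂ : F) := by rw [h12]
    simp only [hg, hπ] at h5
    rw [kerP_of_mem ℓ _ hℓ (hker w₁ h1), kerP_of_mem ℓ _ hℓ (hker w₂ h3)] at h5
    have h6 := hVi h2 h4 (sub_left_injective h5)
    have h7 := congrArg T h6
    rw [T.right_inv h1, T.right_inv h3] at h7
    exact (Prod.mk.inj h7).2
  have hgI := ih K (LinearMap.ker ℓ.toLinearMap) (finrank_ker hE D hDx) (finrank_ker hF ℓ hℓ)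
    g 0 hgd hgi
  have hgD : HasFDerivAt g (π.comp (A.comp K.subtypeL)) 0 := by
    have h1 : HasFDerivAt f A (T.symm ((0 : ℂ), (0 : K))) := by
      have h2 : T.symm ((0 : ℂ), (0 : K)) = a := hTs0
      rwa [h2]
    have h2 : HasFDerivAt (fun w : K => f (T.symm (0, w))) (A.comp K.subtypeL) 0 :=
      HasFDerivAt.comp (0 : K) (g := f) (f := fun w : K => T.symm (0, w)) h1 hTK
    exact HasFDerivAt.comp (0 : K) (g := π) (f := fun w : K => f (T.symm (0, w)) - f a)
      π.hasFDerivAt (h2.sub_const _)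
  rw [hgD.fderiv] at hgI
  refine (injective_iff_map_eq_zero _).2 fun y hy => ?_
  have hyK : D y = 0 := by rw [hDdef, ContinuousLinearMap.comp_apply, hy, map_zero]
  have h1 : (⟨y, hyK⟩ : K) = 0 := by
    apply hgI
    rw [map_zero]
    simp only [ContinuousLinearMap.comp_apply, Submodule.subtypeL_apply]
    rw [hy, map_zero]
  exact congrArg Subtype.val h1

/-- a holomorphic function all of whose derivatives vanish at a point is zero near it -/
theorem ev_zero {E : Type*} [NormedAddCommGroup E] [NormedSpace ℂ E] {J : E → ℂ} {a : E}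
    (hJ : AnalyticAt ℂ J a) (h : ∀ m, iteratedFDeriv ℂ m J a = 0) : ∀ᶠ z in 𝓝 a, J z = 0 := by
  obtain ⟨q, r, hq⟩ := hJ
  have hz : ∀ y ∈ Metric.eball (0 : E) r, J (a + y) = 0 := by
    intro y hy
    have h1 : ∀ m, q m (fun _ => y) = 0 := by
      intro m
      have h2 := hq.factorial_smul y m
      rw [h m] at h2
      rw [_root_.zero_apply, ← Nat.cast_smul_eq_nsmul ℂ, smul_eq_zero] at h2
      rcases h2 with h3 | h3
      · exact absurd h3 (by exact_mod_cast m.factorial_ne_zero)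
      · exact h3
    have h2 := hq.hasSum hy
    simp only [h1] at h2
    exact (h2.unique hasSum_zero)
  have h1 : Metric.eball a r ∈ 𝓝 a := Metric.eball_mem_nhds a hq.r_pos
  filter_upwards [h1] with z hz1
  have h2 := hz (z - a) (by
    rw [Metric.mem_eball] at hz1 ⊢
    rwa [edist_zero_right, ← edist_eq_enorm_sub])
  rwa [add_sub_cancel] at h2

/-- the induction step -/
theorem z_step {n : ℕ} (ih : OsgP.{u, v} (n + 1)) : OsgP.{u, v} (n + 2) := by
  intro E _ _ _ F _ _ _ hE hF f a hf hinj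
  by_contra hni
  have hCE : CompleteSpace E := FiniteDimensional.complete ℂ E
  have hCF : CompleteSpace F := FiniteDimensional.complete ℂ F
  obtain ⟨V₀, hV₀, hVi₀⟩ := hinj
  obtain ⟨V, hVsub, hVo, haV⟩ := _root_.eventually_nhds_iff.1 (hf.and hV₀)
  have hVi : InjOn f V := fun x hx y hy h => hVi₀ (hVsub x hx).2 (hVsub y hy).2 h
  have hfan : ∀ z ∈ V, AnalyticAt ℂ f z := fun z hz =>
    analyticAt_ev (Filter.mem_of_superset (hVo.mem_nhds hz) fun y hy => (hVsub y hy).1)
  have hrank : ∀ z ∈ V, ¬Function.Injective (fderiv ℂ f z) → fderiv ℂ f z = 0 := by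
    intro z hz hz1
    by_contra hz2
    exact hz1 (slice_step ih hE hF
      (Filter.mem_of_superset (hVo.mem_nhds hz) fun y hy => (hVsub y hy).1)
      ⟨V, hVo.mem_nhds hz, hVi⟩ hz2)
  have hnt : Nontrivial E := Module.nontrivial_of_finrank_pos (R := ℂ) (by rw [hE]; omega)
  set θ : F ≃L[ℂ] E := ContinuousLinearEquiv.ofFinrankEq (by rw [hE, hF]) with hθ
  set b := Module.finBasis ℂ E with hb
  set B : E → E →ₗ[ℂ] E := fun z => ((θ : F →L[ℂ] E).comp (fderiv ℂ f z)).toLinearMap with hB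
  set J : E → ℂ := fun z => LinearMap.det (B z) with hJ
  have hJan : ∀ z ∈ V, AnalyticAt ℂ J z := by
    intro z hz
    have h1 : J = fun z => ∑ σ : Equiv.Perm (Fin (finrank ℂ E)), (((Equiv.Perm.sign σ : ℤ) : ℂ)) *
        ∏ i, (b.repr (θ (fderiv ℂ f z (b i)))) (σ i) := by
      funext z
      simp only [hJ]
      rw [← LinearMap.det_toMatrix b, Matrix.det_apply']
      refine Finset.sum_congr rfl fun σ _ => ?_
      refine congrArg (fun t => ((Equiv.Perm.sign σ : ℤ) : ℂ) * t)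
        (Finset.prod_congr rfl fun i _ => ?_)
      rw [LinearMap.toMatrix_apply]
      rfl
    rw [h1]
    refine Finset.analyticAt_fun_sum _ fun σ _ => ?_
    refine analyticAt_const.mul (Finset.analyticAt_fun_prod _ fun i _ => ?_)
    have h2 : AnalyticAt ℂ (fun z => fderiv ℂ f z (b i)) z := by
      have h3 := (hfan z hz).fderiv
      exact (ContinuousLinearMap.analyticAt (ContinuousLinearMap.apply ℂ F (b i))
        (fderiv ℂ f z)).comp h3
    set c : F →L[ℂ] ℂ := (LinearMap.toContinuousLinearMap (b.coord (σ i))).comp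
      (θ : F →L[ℂ] E) with hc
    exact AnalyticAt.comp (g := c) (f := fun z => fderiv ℂ f z (b i)) (c.analyticAt _) h2
  have hJ0 : ∀ z ∈ V, J z = 0 → fderiv ℂ f z = 0 := by
    intro z hz hz1
    refine hrank z hz fun hz2 => ?_
    have h1 := LinearMap.bot_lt_ker_of_det_eq_zero hz1
    obtain ⟨x, hx, hx0⟩ := SetLike.exists_of_lt h1
    have h2 : θ (fderiv ℂ f z x) = 0 := hx
    have h3 : fderiv ℂ f z x = 0 := by
      rw [← map_zero θ] at h2
      exact θ.injective h2
    exact hx0 ((Submodule.mem_bot ℂ).2 ((injective_iff_map_eq_zero _).1 hz2 x h3))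
  have hJa : J a = 0 := by
    have h1 := hrank a haV hni
    simp only [hJ, hB, h1]
    rw [ContinuousLinearMap.comp_zero]
    simp only [ContinuousLinearMap.toLinearMap_zero]
    rw [LinearMap.det_zero, hE]
    simp
  -- the minimal order
  have hex : ∃ m, ∃ z ∈ V, J z = 0 ∧ iteratedFDeriv ℂ m J z ≠ 0 := by
    by_contra h
    push Not at h
    have h1 := ev_zero (hJan a haV) fun m => h m a haV hJa
    obtain ⟨s, hs, hsb⟩ := Metric.eventually_nhds_iff_ball.1 (h1.and (hVo.mem_nhds haV))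
    obtain ⟨x, hx⟩ := exists_ne (0 : E)
    have hxn : 0 < ‖x‖ := norm_pos_iff.2 hx
    set t : ℝ := s / 2 / ‖x‖ with ht
    have ht0 : 0 < t := by positivity
    set y := a + (t : ℂ) • x with hy
    have hyb : y ∈ ball a s := by
      rw [mem_ball, dist_eq_norm, hy, add_sub_cancel_left, norm_smul, Complex.norm_real,
        Real.norm_of_nonneg ht0.le, ht, div_mul_cancel₀ _ hxn.ne']
      linarith
    have h2 := (convex_ball a s).norm_image_sub_le_of_norm_fderiv_le (𝕜 := ℂ) (f := f)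
      (C := 0) (x := a) (y := y) (fun w hw => (hVsub w (hsb w hw).2).1)
      (fun w hw => by rw [hJ0 w (hsb w hw).2 (hsb w hw).1, norm_zero]) (mem_ball_self hs) hyb
    rw [zero_mul] at h2
    have h3 := hVi (hsb y hyb).2 haV (sub_eq_zero.1 (norm_le_zero_iff.1 h2))
    rw [hy] at h3
    have h4 : (t : ℂ) • x = 0 := by simpa using h3
    rcases smul_eq_zero.1 h4 with h5 | h5
    · exact ht0.ne' (Complex.ofReal_eq_zero.1 h5)
    · exact hx h5
  classical
  obtain ⟨z₀, hz₀V, hz₀J, hz₀m⟩ := Nat.find_spec hex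
  have hmin : ∀ m < Nat.find hex, ∀ z ∈ V, J z = 0 → iteratedFDeriv ℂ m J z = 0 := by
    intro m hm z hz hz1
    by_contra h
    exact Nat.find_min hex hm ⟨z, hz, hz1, h⟩
  obtain ⟨k, hk⟩ : ∃ k, Nat.find hex = k + 1 := by
    refine Nat.exists_eq_succ_of_ne_zero fun h => ?_
    rw [h] at hz₀m
    apply hz₀m
    ext w
    simpa using hz₀J
  rw [hk] at hz₀m hmin
  obtain ⟨w, hw⟩ : ∃ w, iteratedFDeriv ℂ (k + 1) J z₀ w ≠ 0 := by
    by_contra h
    push Not at h
    exact hz₀m (ContinuousMultilinearMap.ext h)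
  set h : E → ℂ := fun z => iteratedFDeriv ℂ k J z (Fin.tail w) with hh
  have hdk : ∀ z ∈ V, DifferentiableAt ℂ (iteratedFDeriv ℂ k J) z := fun z hz =>
    ((hJan z hz).contDiffAt (n := (k + 1 : ℕ))).differentiableAt_iteratedFDeriv
      (by exact_mod_cast Nat.lt_succ_self k)
  have hhd : ∀ z ∈ V, DifferentiableAt ℂ h z := fun z hz =>
    (hdk z hz).continuousMultilinear_apply_const _
  have hhZ : ∀ z ∈ V, J z = 0 → h z = 0 := by
    intro z hz hz1
    simp only [hh]
    rw [hmin k (Nat.lt_succ_self k) z hz hz1]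
    rfl
  set D : E →L[ℂ] ℂ := fderiv ℂ h z₀ with hD
  have hDw : D (w 0) = iteratedFDeriv ℂ (k + 1) J z₀ w := by
    rw [hD, iteratedFDeriv_succ_apply_left]
    exact fderiv_continuousMultilinear_apply_const_apply (hdk z₀ hz₀V) _ _
  set v := (iteratedFDeriv ℂ (k + 1) J z₀ w)⁻¹ • w 0 with hv
  have hDv : D v = 1 := by
    rw [hv, map_smul, hDw, smul_eq_mul, inv_mul_cancel₀ hw]
  let K : Submodule ℂ E := LinearMap.ker D.toLinearMap
  obtain ⟨T, has, hTa, hT1, hTd, hTK⟩ : ∃ T : OpenPartialHomeomorph E (ℂ × K),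
      z₀ ∈ T.source ∧ T z₀ = 0 ∧ (∀ z, (T z).1 = h z - h z₀) ∧
      (∀ᶠ y in 𝓝 (0 : ℂ × K), DifferentiableAt ℂ T.symm y) ∧
      HasFDerivAt (fun w : K => T.symm (0, w)) K.subtypeL 0 :=
    straight (Filter.mem_of_superset (hVo.mem_nhds hz₀V) hhd) (hhd z₀ hz₀V).hasFDerivAt hDv
  have hhz₀ : h z₀ = 0 := hhZ z₀ hz₀V hz₀J
  have h0t : (0 : ℂ × K) ∈ T.target := by
    rw [← hTa]
    exact T.map_source has
  have hTs0 : T.symm 0 = z₀ := by
    rw [← hTa]
    exact T.left_inv has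
  have hTV : ∀ᶠ y in 𝓝 (0 : ℂ × K), T.symm y ∈ V := by
    have h1 := (T.continuousAt_symm h0t).tendsto
    rw [hTs0] at h1
    exact h1.eventually (hVo.mem_nhds hz₀V)
  obtain ⟨ρ, hρ, hρb⟩ := Metric.eventually_nhds_iff_ball.1
    (((show ∀ᶠ y in 𝓝 (0 : ℂ × K), y ∈ T.target from T.open_target.mem_nhds h0t).and hTV).and
      hTd)
  set G : ℂ × K → ℂ := fun y => J (T.symm y) with hG
  have hA : ∀ y ∈ ball (0 : ℂ × K) ρ, G y = 0 → y.1 = 0 := by
    intro y hy hy1
    obtain ⟨⟨h1, h2⟩, h3⟩ := hρb y hy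
    have h4 := hT1 (T.symm y)
    rw [T.right_inv h1, hhz₀, hhZ _ h2 hy1, sub_zero] at h4
    exact h4
  have hGd : ∀ y ∈ ball (0 : ℂ × K) ρ, DifferentiableAt ℂ G y := by
    intro y hy
    obtain ⟨⟨h1, h2⟩, h3⟩ := hρb y hy
    exact DifferentiableAt.comp y (g := J) (f := T.symm) (hJan _ h2).differentiableAt h3
  have hpair : ∀ (ζ : ℂ) (w : K), ‖ζ‖ < ρ → ‖w‖ < ρ → (ζ, w) ∈ ball (0 : ℂ × K) ρ := by
    intro ζ w h1 h2
    rw [mem_ball_zero_iff, Prod.norm_def]
    exact max_lt h1 h2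
  set r := ρ / 2 with hr
  have hr0 : 0 < r := by positivity
  have hrρ : r < ρ := by rw [hr]; linarith
  have hline : ∀ w : K, ‖w‖ < ρ → ∀ ζ ∈ closedBall (0 : ℂ) r,
      DifferentiableAt ℂ (fun ζ : ℂ => G (ζ, w)) ζ := by
    intro w hw ζ hζ
    rw [mem_closedBall_zero_iff] at hζ
    have h1 := hGd _ (hpair ζ w (hζ.trans_lt hrρ) hw)
    have h2 : DifferentiableAt ℂ (fun ζ : ℂ => (ζ, w)) ζ :=
      differentiableAt_id.prodMk (differentiableAt_const _)
    exact DifferentiableAt.comp ζ (g := G) (f := fun ζ : ℂ => (ζ, w)) h1 h2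
  have hK0 : ‖(0 : K)‖ < ρ := by rwa [norm_zero]
  obtain ⟨ζ₁, hζ₁, hζmin⟩ := (isCompact_sphere (0 : ℂ) r).exists_isMinOn
    (NormedSpace.sphere_nonempty.2 hr0.le)
    (f := fun ζ : ℂ => ‖G (ζ, (0 : K))‖)
    (fun ζ hζ => ((hline 0 hK0 ζ (sphere_subset_closedBall hζ)).continuousAt.norm).continuousWithinAt)
  have hsph : ∀ ζ ∈ sphere (0 : ℂ) r, ζ ≠ 0 ∧ ‖ζ‖ < ρ := by
    intro ζ hζ
    rw [mem_sphere_zero_iff_norm] at hζ
    refine ⟨fun h => ?_, by rw [hζ]; exact hrρ⟩
    rw [h, norm_zero] at hζ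
    exact hr0.ne hζ
  set c₀ := ‖G (ζ₁, (0 : K))‖ with hc₀
  have hc₀0 : 0 < c₀ := by
    refine norm_pos_iff.2 fun h1 => (hsph ζ₁ hζ₁).1 ?_
    exact hA _ (hpair ζ₁ 0 (hsph ζ₁ hζ₁).2 hK0) h1
  have hlow : ∀ᶠ w in 𝓝 (0 : K), ∀ ζ ∈ sphere (0 : ℂ) r, c₀ / 2 < ‖G (ζ, w)‖ := by
    refine (isCompact_sphere (0 : ℂ) r).eventually_forall_of_forall_eventually
      (P := fun w ζ => c₀ / 2 < ‖G (ζ, w)‖) fun ζ hζ => ?_
    have h1 : ContinuousAt (fun q : K × ℂ => G (q.2, q.1)) ((0 : K), ζ) := by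
      have h2 : ContinuousAt (fun q : K × ℂ => (q.2, q.1)) ((0 : K), ζ) :=
        continuousAt_snd.prodMk continuousAt_fst
      exact ContinuousAt.comp (x := ((0 : K), ζ)) (f := fun q : K × ℂ => (q.2, q.1)) (g := G)
        (hGd _ (hpair ζ 0 (hsph ζ hζ).2 hK0)).continuousAt h2
    have h3 : c₀ / 2 < ‖G (ζ, (0 : K))‖ := by
      have h4 : c₀ ≤ ‖G (ζ, (0 : K))‖ := hζmin hζ
      linarith
    exact h1.norm.eventually (lt_mem_nhds h3)
  have hi : Tendsto (fun w : K => ((0 : ℂ), w)) (𝓝 0) (𝓝 0) :=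
    (Continuous.prodMk_right (0 : ℂ)).tendsto (0 : K)
  have hsm : ∀ᶠ w in 𝓝 (0 : K), ‖G (0, w)‖ < c₀ / 2 := by
    have h1 := (hGd 0 (mem_ball_self hρ)).continuousAt.tendsto.comp hi
    have h2 : G 0 = 0 := by
      simp only [hG, hTs0]
      exact hz₀J
    rw [h2] at h1
    have h3 := h1.norm
    rw [norm_zero] at h3
    exact h3.eventually (gt_mem_nhds (by positivity))
  have hzero : ∀ᶠ w in 𝓝 (0 : K), G (0, w) = 0 := by
    filter_upwards [hlow, hsm, ball_mem_nhds (0 : K) hρ] with w h1 h2 h3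
    by_contra h4
    rw [mem_ball_zero_iff] at h3
    have h5 := minmod (g := fun ζ : ℂ => G (ζ, w)) (a := 0) (r := r) (c := c₀ / 2) hr0
      (by positivity) (hline w h3)
      (fun ζ hζ h6 => by
        rw [mem_closedBall_zero_iff] at hζ
        have h7 := hA _ (hpair ζ w (hζ.trans_lt hrρ) h3) h6
        simp only at h7
        rw [h7] at h6
        exact h4 h6)
      (fun ζ hζ => (h1 ζ hζ).le) (mem_closedBall_self hr0.le)
    linarith
  -- `f` is constant on the hypersurface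
  obtain ⟨s, hs, hsb⟩ := Metric.eventually_nhds_iff_ball.1 (hzero.and (ball_mem_nhds (0 : K) hρ))
  set q : K → F := fun w => f (T.symm (0, w)) with hq
  have hqd : ∀ w ∈ ball (0 : K) s, HasFDerivAt q (0 : K →L[ℂ] F) w := by
    intro w hw
    obtain ⟨h1, h2⟩ := hsb w hw
    rw [dist_zero_right] at h2
    obtain ⟨⟨h3, h4⟩, h5⟩ := hρb _ (hpair 0 w (by rwa [norm_zero]) h2)
    have h6 : HasFDerivAt f (0 : E →L[ℂ] F) (T.symm (0, w)) := by
      rw [← hJ0 _ h4 h1]
      exact (hVsub _ h4).1.hasFDerivAt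
    have h7 : DifferentiableAt ℂ (fun w : K => T.symm (0, w)) w :=
      DifferentiableAt.comp w (g := T.symm) (f := fun w : K => ((0 : ℂ), w)) h5
        (ContinuousLinearMap.inr ℂ ℂ K).differentiableAt
    have h8 := HasFDerivAt.comp w (g := f) (f := fun w : K => T.symm (0, w)) h6 h7.hasFDerivAt
    rwa [ContinuousLinearMap.zero_comp] at h8
  have hKn : Nontrivial K := Module.nontrivial_of_finrank_pos (R := ℂ)
    (by rw [finrank_ker hE D hDv]; omega)
  obtain ⟨x, hx⟩ := exists_ne (0 : K)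
  have hxn : 0 < ‖x‖ := norm_pos_iff.2 hx
  set t : ℝ := s / 2 / ‖x‖ with ht
  have ht0 : 0 < t := by positivity
  set y : K := (t : ℂ) • x with hy
  have hyb : y ∈ ball (0 : K) s := by
    rw [mem_ball_zero_iff, hy, norm_smul, Complex.norm_real,
      Real.norm_of_nonneg ht0.le, ht, div_mul_cancel₀ _ hxn.ne']
    linarith
  have h2 := (convex_ball (0 : K) s).norm_image_sub_le_of_norm_fderiv_le (𝕜 := ℂ) (f := q)
    (C := 0) (x := 0) (y := y) (fun w hw => (hqd w hw).differentiableAt)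
    (fun w hw => by rw [(hqd w hw).fderiv, norm_zero]) (mem_ball_self hs) hyb
  rw [zero_mul] at h2
  have h3 : q y = q 0 := sub_eq_zero.1 (norm_le_zero_iff.1 h2)
  have hm : ∀ w ∈ ball (0 : K) s, ((0 : ℂ), w) ∈ T.target ∧ T.symm (0, w) ∈ V := by
    intro w hw
    obtain ⟨-, h4⟩ := hsb w hw
    rw [dist_zero_right] at h4
    exact (hρb _ (hpair 0 w (by rwa [norm_zero]) h4)).1
  have h5 := hVi (hm y hyb).2 (hm 0 (mem_ball_self hs)).2 h3
  have h6 := congrArg T h5
  rw [T.right_inv (hm y hyb).1, T.right_inv (hm 0 (mem_ball_self hs)).1] at h6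
  have h7 : y = 0 := (Prod.mk.inj h6).2
  rw [hy] at h7
  rcases smul_eq_zero.1 h7 with h8 | h8
  · exact ht0.ne' (Complex.ofReal_eq_zero.1 h8)
  · exact hx h8

theorem osgP_all : ∀ n, OsgP.{u, v} n
  | 0 => by
    intro E _ _ _ F _ _ _ hE _ _ _ _ _
    have := Module.finrank_zero_iff.1 hE
    exact Function.injective_of_subsingleton _
  | 1 => osg_one
  | n + 2 => z_step (osgP_all (n + 1))

/-- **Osgood's theorem** at a point -/
theorem osgood_at {E : Type u} [NormedAddCommGroup E] [NormedSpace ℂ E] [FiniteDimensional ℂ E]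
    {F : Type v} [NormedAddCommGroup F] [NormedSpace ℂ F] [FiniteDimensional ℂ F]
    (hdim : finrank ℂ E = finrank ℂ F) {f : E → F} {a : E}
    (hf : ∀ᶠ z in 𝓝 a, DifferentiableAt ℂ f z) (hinj : ∃ V ∈ 𝓝 a, InjOn f V) :
    Function.Injective (fderiv ℂ f a) :=
  osgP_all (finrank ℂ E) E F rfl hdim.symm f a hf hinj

/-- **Osgood's theorem** on an open set -/
theorem osgood {E : Type u} [NormedAddCommGroup E] [NormedSpace ℂ E] [FiniteDimensional ℂ E]
    {F : Type v} [NormedAddCommGroup F] [NormedSpace ℂ F] [FiniteDimensional ℂ F]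
    (hdim : finrank ℂ E = finrank ℂ F) {U : Set E} (hU : IsOpen U) {f : E → F}
    (hf : DifferentiableOn ℂ f U) (hinj : InjOn f U) :
    ∀ x ∈ U, Function.Injective (fderiv ℂ f x) := fun _ hx =>
  osgood_at hdim (Filter.mem_of_superset (hU.mem_nhds hx)
    fun _ hy => hf.differentiableAt (hU.mem_nhds hy)) ⟨U, hU.mem_nhds hx, hinj⟩

/-- The self map case, in the letters of `Vale.Agent.P253.H661.Osg`: for every finite dimensional
`E`, `Osg E` is `fun U h => osg_self U h`. -/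
theorem osg_self {E : Type u} [NormedAddCommGroup E] [NormedSpace ℂ E] [FiniteDimensional ℂ E]
    (U : Set E) (h : E → E) (hU : IsOpen U) (hd : DifferentiableOn ℂ h U) (hi : InjOn h U) :
    ∀ x ∈ U, Function.Injective (fderiv ℂ h x) :=
  osgood rfl hU hd hi

end Vale.Agent.P253.H445
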