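import Mathlib

/-!
P253: closed subgroups of a torus without invariant monomials contain a one-parameter group with
positive weights.
-/

open Set Metric Filter Topology

noncomputable section

namespace Vale.Agent.P253.H445

variable {n : ℕ}

/-- the integral vector -/
def iv (z : Fin n → ℤ) : Fin n → ℝ := fun j => (z j : ℝ)

theorem iv_add (z w : Fin n → ℤ) : iv (z + w) = iv z + iv w := by
  funext j; simp [iv]

theorem iv_neg (z : Fin n → ℤ) : iv (-z) = -iv z := by
  funext j; simp [iv]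

theorem iv_sub (z w : Fin n → ℤ) : iv (z - w) = iv z - iv w := by
  funext j; simp [iv]

theorem iv_zero : iv (0 : Fin n → ℤ) = 0 := by
  funext j; simp [iv]

/-- simultaneous approximation -/
theorem exists_approx (y : Fin n → ℝ) {ε : ℝ} (hε : 0 < ε) :
    ∃ k : ℕ, 1 ≤ k ∧ ∃ z : Fin n → ℤ, ‖(k : ℝ) • y - iv z‖ < ε := by
  have hK : IsCompact (Set.pi univ fun _ : Fin n => Icc (0 : ℝ) 1) :=
    isCompact_univ_pi fun _ => isCompact_Icc
  obtain ⟨a, -, φ, hφ, ha⟩ := hK.tendsto_subseq (x := fun (k : ℕ) (j : Fin n) =>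
    Int.fract ((k : ℝ) * y j)) fun k j _ => ⟨Int.fract_nonneg _, (Int.fract_lt_one _).le⟩
  have hC := ha.cauchySeq
  obtain ⟨N, hN⟩ := Metric.cauchySeq_iff.1 hC ε hε
  have h1 := hN (N + 1) (Nat.le_succ N) N le_rfl
  have h2 : φ N < φ (N + 1) := hφ (Nat.lt_succ_self N)
  refine ⟨φ (N + 1) - φ N, by omega, fun j => ⌊(φ (N + 1) : ℝ) * y j⌋ - ⌊(φ N : ℝ) * y j⌋, ?_⟩
  rw [dist_eq_norm] at h1
  refine lt_of_eq_of_lt ?_ h1
  congr 1
  funext j
  have h3 : ((φ (N + 1) - φ N : ℕ) : ℝ) = (φ (N + 1) : ℝ) - φ N := by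
    rw [Nat.cast_sub h2.le]
  simp only [Pi.sub_apply, Pi.smul_apply, smul_eq_mul, iv, Function.comp_apply, h3, Int.cast_sub,
    Int.fract]
  ring

section group

variable {G : Set (Fin n → ℝ)} (hcl : IsClosed G) (hadd : ∀ x ∈ G, ∀ y ∈ G, x + y ∈ G)
  (hint : ∀ z : Fin n → ℤ, iv z ∈ G)

include hadd hint in
theorem nat_smul_mem {y : Fin n → ℝ} (hy : y ∈ G) (k : ℕ) : (k : ℝ) • y ∈ G := by
  induction k with
  | zero =>
    have := hint 0
    rw [iv_zero] at this
    simpa using this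
  | succ k ih =>
    have : ((k + 1 : ℕ) : ℝ) • y = (k : ℝ) • y + y := by
      push_cast
      rw [add_smul, one_smul]
    rw [this]
    exact hadd _ ih _ hy

include hcl hadd hint in
theorem neg_mem {y : Fin n → ℝ} (hy : y ∈ G) : -y ∈ G := by
  rw [← hcl.closure_eq, Metric.mem_closure_iff]
  intro ε hε
  obtain ⟨k, hk, z, hz⟩ := exists_approx y hε
  refine ⟨((k - 1 : ℕ) : ℝ) • y + iv (-z), hadd _ (nat_smul_mem hadd hint hy _) _ (hint _), ?_⟩
  rw [dist_eq_norm]
  have h1 : -y - (((k - 1 : ℕ) : ℝ) • y + iv (-z)) = -((k : ℝ) • y - iv z) := by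
    rw [iv_neg, Nat.cast_sub hk, sub_smul, Nat.cast_one, one_smul]
    abel
  rw [h1, norm_neg]
  exact hz

include hcl hadd hint in
theorem sub_mem {x y : Fin n → ℝ} (hx : x ∈ G) (hy : y ∈ G) : x - y ∈ G := by
  rw [sub_eq_add_neg]
  exact hadd _ hx _ (neg_mem hcl hadd hint hy)

include hcl hadd hint in
theorem int_smul_mem {y : Fin n → ℝ} (hy : y ∈ G) (k : ℤ) : (k : ℝ) • y ∈ G := by
  obtain ⟨m, rfl | rfl⟩ := k.eq_nat_or_neg
  · rw [Int.cast_natCast]
    exact nat_smul_mem hadd hint hy m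
  · rw [Int.cast_neg, Int.cast_natCast, neg_smul]
    exact neg_mem hcl hadd hint (nat_smul_mem hadd hint hy m)

/-- the Lie algebra -/
def lieD (G : Set (Fin n → ℝ)) (hadd : ∀ x ∈ G, ∀ y ∈ G, x + y ∈ G)
    (hint : ∀ z : Fin n → ℤ, iv z ∈ G) : Submodule ℝ (Fin n → ℝ) where
  carrier := {m | ∀ t : ℝ, t • m ∈ G}
  add_mem' := fun {a b} ha hb t => by
    rw [smul_add]
    exact hadd _ (ha t) _ (hb t)
  zero_mem' := fun t => by
    rw [smul_zero, ← iv_zero]
    exact hint 0
  smul_mem' := fun c x hx t => by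
    rw [smul_smul]
    exact hx _

theorem mem_lieD {m : Fin n → ℝ} : m ∈ lieD G hadd hint ↔ ∀ t : ℝ, t • m ∈ G := Iff.rfl

include hcl in
/-- small elements of a closed subgroup are in the Lie algebra -/
theorem exists_small : ∃ δ > 0, ∀ y ∈ G, ‖y‖ < δ → y ∈ lieD G hadd hint := by
  obtain ⟨D', hD'⟩ := (lieD G hadd hint).exists_isCompl
  set D := lieD G hadd hint with hD
  by_contra hcon
  push Not at hcon
  have h0 : ∀ k : ℕ, ∃ y ∈ G, ‖y‖ < 1 / ((k : ℝ) + 1) ∧ y ∉ D := fun k =>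
    hcon _ (by positivity)
  choose y hyG hyn hyD using h0
  set P : (Fin n → ℝ) →ₗ[ℝ] (Fin n → ℝ) := D'.subtype ∘ₗ D'.projectionOnto D hD'.symm with hP
  have hPc : Continuous P := P.continuous_of_finiteDimensional
  have hPm : ∀ x, P x ∈ D' := fun x => (D'.projectionOnto D hD'.symm x).2
  have hPs : ∀ x, x - P x ∈ D := by
    intro x
    have h1 : D'.projectionOnto D hD'.symm (x - P x) = 0 := by
      rw [map_sub, sub_eq_zero]
      exact (Submodule.projectionOnto_apply_left hD'.symm _).symm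
    exact (Submodule.projectionOnto_apply_eq_zero_iff hD'.symm).1 h1
  have hy0 : Tendsto y atTop (𝓝 0) := by
    refine squeeze_zero_norm (fun k => (hyn k).le) ?_
    exact tendsto_one_div_add_atTop_nhds_zero_nat
  set z : ℕ → Fin n → ℝ := fun k => P (y k) with hz
  have hz0 : Tendsto z atTop (𝓝 0) := by
    have := (hPc.tendsto 0).comp hy0
    rwa [map_zero] at this
  have hzG : ∀ k, z k ∈ G := by
    intro k
    have h1 : y k - P (y k) ∈ G := by
      have := (mem_lieD hadd hint).1 (hPs (y k)) 1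
      rwa [one_smul] at this
    have h2 : z k = y k - (y k - P (y k)) := by simp only [hz]; abel
    rw [h2]
    exact sub_mem hcl hadd hint (hyG k) h1
  have hzne : ∀ k, z k ≠ 0 := by
    intro k h
    refine hyD k ?_
    have := hPs (y k)
    rw [show P (y k) = 0 from h, sub_zero] at this
    exact this
  have hsph : IsCompact (sphere (0 : Fin n → ℝ) 1) := isCompact_sphere 0 1
  obtain ⟨v, hv, φ, hφ, hlim⟩ := hsph.tendsto_subseq (x := fun k => ‖z k‖⁻¹ • z k) fun k => by
    rw [mem_sphere_zero_iff_norm, norm_smul, norm_inv, norm_norm,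
      inv_mul_cancel₀ (norm_ne_zero_iff.2 (hzne k))]
  have hvD' : v ∈ D' := by
    have hc : IsClosed (D' : Set (Fin n → ℝ)) := D'.closed_of_finiteDimensional
    exact hc.mem_of_tendsto hlim (Eventually.of_forall fun k => D'.smul_mem _ (hPm _))
  have hvD : v ∈ D := by
    intro t
    have hzφ : Tendsto (fun k => z (φ k)) atTop (𝓝 0) := hz0.comp hφ.tendsto_atTop
    have h1 : Tendsto (fun k => (⌊t / ‖z (φ k)‖⌋ : ℝ) • z (φ k)) atTop (𝓝 (t • v)) := by
      have h2 : Tendsto (fun k => t • (‖z (φ k)‖⁻¹ • z (φ k))) atTop (𝓝 (t • v)) :=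
        hlim.const_smul t
      have h3 : Tendsto (fun k => (⌊t / ‖z (φ k)‖⌋ : ℝ) • z (φ k) -
          t • (‖z (φ k)‖⁻¹ • z (φ k))) atTop (𝓝 0) := by
        refine squeeze_zero_norm (a := fun k => ‖z (φ k)‖) (fun k => ?_) ?_
        · have hpos : 0 < ‖z (φ k)‖ := norm_pos_iff.2 (hzne _)
          rw [smul_smul, ← sub_smul, norm_smul, Real.norm_eq_abs]
          have h4 : |(⌊t / ‖z (φ k)‖⌋ : ℝ) - t * ‖z (φ k)‖⁻¹| ≤ 1 := by
            rw [← div_eq_mul_inv, abs_le]
            constructor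
            · linarith [Int.lt_floor_add_one (t / ‖z (φ k)‖)]
            · linarith [Int.floor_le (t / ‖z (φ k)‖)]
          calc |(⌊t / ‖z (φ k)‖⌋ : ℝ) - t * ‖z (φ k)‖⁻¹| * ‖z (φ k)‖ ≤ 1 * ‖z (φ k)‖ :=
                mul_le_mul_of_nonneg_right h4 hpos.le
            _ = ‖z (φ k)‖ := one_mul _
        · simpa using hzφ.norm
      have h5 := h3.add h2
      simpa using h5
    exact hcl.mem_of_tendsto h1 (Eventually.of_forall fun k =>
      int_smul_mem hcl hadd hint (hzG _) _)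
  have h0 : v = 0 := by
    have := hD'.disjoint.le_bot (Submodule.mem_inf.2 ⟨hvD, hvD'⟩)
    simpa using this
  rw [h0, mem_sphere_zero_iff_norm, norm_zero] at hv
  exact one_ne_zero hv.symm

include hadd hint in
/-- finitely many representatives -/
theorem exists_reps (hcl : IsClosed G) {δ : ℝ} (hδ : 0 < δ) :
    ∃ F : Finset (Fin n → ℝ), (∀ f ∈ F, f ∈ G) ∧
      ∀ y ∈ G, ∃ f ∈ F, ∃ z : Fin n → ℤ, ‖y - iv z - f‖ < δ := by
  have hK : IsCompact (G ∩ Set.pi univ fun _ : Fin n => Icc (0 : ℝ) 1) :=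
    (isCompact_univ_pi fun _ => isCompact_Icc).inter_left hcl
  obtain ⟨t, ht, htf, hcov⟩ := hK.finite_cover_balls hδ
  refine ⟨htf.toFinset, fun f hf => (ht (htf.mem_toFinset.1 hf)).1, fun y hy => ?_⟩
  have h1 : y - iv (fun j => ⌊y j⌋) ∈ G ∩ Set.pi univ fun _ : Fin n => Icc (0 : ℝ) 1 := by
    constructor
    · exact sub_mem hcl hadd hint hy (hint _)
    · intro j _
      simp only [Pi.sub_apply, iv]
      exact ⟨by linarith [Int.floor_le (y j)], by linarith [Int.lt_floor_add_one (y j)]⟩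
  obtain ⟨f, hft, hf⟩ := mem_iUnion₂.1 (hcov h1)
  refine ⟨f, htf.mem_toFinset.2 hft, fun j => ⌊y j⌋, ?_⟩
  rwa [mem_ball, dist_eq_norm] at hf

include hcl in
/-- every element of the Lie algebra is integrally equivalent to a bounded one -/
theorem exists_bound : ∃ R : ℝ, ∀ m ∈ lieD G hadd hint, ∃ m' ∈ lieD G hadd hint, ‖m'‖ ≤ R ∧
    ∃ z : Fin n → ℤ, m = m' + iv z := by
  obtain ⟨δ, hδ, hsm⟩ := exists_small hcl hadd hint
  obtain ⟨F, hFG, hF⟩ := exists_reps hadd hint hcl hδ
  have hr : ∀ f : Fin n → ℝ, ∃ r ∈ lieD G hadd hint,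
      (∃ p ∈ lieD G hadd hint, ∃ w : Fin n → ℤ, f = p + iv w) → ∃ w : Fin n → ℤ, f = r + iv w := by
    intro f
    by_cases h : ∃ p ∈ lieD G hadd hint, ∃ w : Fin n → ℤ, f = p + iv w
    · obtain ⟨p, hp, w, hw⟩ := h
      exact ⟨p, hp, fun _ => ⟨w, hw⟩⟩
    · exact ⟨0, Submodule.zero_mem _, fun h' => absurd h' h⟩
  choose r hrD hrw using hr
  refine ⟨δ + ∑ f ∈ F, ‖r f‖, fun m hm => ?_⟩
  have hmG : m ∈ G := by
    have := (mem_lieD hadd hint).1 hm 1
    rwa [one_smul] at this
  obtain ⟨f, hfF, z, hz⟩ := hF m hmG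
  have hd : m - iv z - f ∈ lieD G hadd hint :=
    hsm _ (sub_mem hcl hadd hint (sub_mem hcl hadd hint hmG (hint _)) (hFG f hfF)) hz
  obtain ⟨w, hw⟩ := hrw f ⟨m - (m - iv z - f), Submodule.sub_mem _ hm hd, -z, by
    rw [iv_neg]; abel⟩
  refine ⟨(m - iv z - f) + r f, Submodule.add_mem _ hd (hrD f), ?_, z + w, ?_⟩
  · refine (norm_add_le _ _).trans (add_le_add hz.le ?_)
    exact Finset.single_le_sum (f := fun f => ‖r f‖) (fun i _ => norm_nonneg _) hfF
  · rw [iv_add]
    have h2 : m = (m - iv z - f) + f + iv z := by abel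
    calc m = (m - iv z - f) + f + iv z := h2
      _ = (m - iv z - f) + (r f + iv w) + iv z := by rw [← hw]
      _ = m - iv z - f + r f + (iv z + iv w) := by abel

include hcl in
/-- a power of every element is in the identity component -/
theorem exists_power : ∃ N : ℕ, 1 ≤ N ∧ ∀ y ∈ G, ∃ z : Fin n → ℤ,
    (N : ℝ) • y - iv z ∈ lieD G hadd hint := by
  obtain ⟨δ, hδ, hsm⟩ := exists_small hcl hadd hint
  obtain ⟨F, hFG, hF⟩ := exists_reps hadd hint hcl hδ
  refine ⟨F.card.factorial, Nat.factorial_pos _, fun y hy => ?_⟩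
  have h0 : ∀ k : ℕ, ∃ f ∈ F, ∃ z : Fin n → ℤ, (k : ℝ) • y - iv z - f ∈ lieD G hadd hint := by
    intro k
    have hk := nat_smul_mem hadd hint hy k
    obtain ⟨f, hfF, z, hz⟩ := hF _ hk
    exact ⟨f, hfF, z, hsm _
      (sub_mem hcl hadd hint (sub_mem hcl hadd hint hk (hint _)) (hFG f hfF)) hz⟩
  choose f hfF z hz using h0
  obtain ⟨a, ha, b, hb, hab, hfab⟩ := Finset.exists_ne_map_eq_of_card_lt_of_maps_to
    (s := Finset.range (F.card + 1)) (t := F) (f := f) (by simp) (fun k _ => hfF k)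
  -- wlog a < b
  have key : ∀ a b : ℕ, a < b → b ≤ F.card → f a = f b → ∃ z' : Fin n → ℤ,
      ((F.card.factorial : ℕ) : ℝ) • y - iv z' ∈ lieD G hadd hint := by
    intro a b hab hb hf
    have h1 : ((b - a : ℕ) : ℝ) • y - iv (z b - z a) ∈ lieD G hadd hint := by
      have := Submodule.sub_mem _ (hz b) (hz a)
      rw [hf] at this
      rw [Nat.cast_sub hab.le, sub_smul, iv_sub]
      convert this using 1
      abel
    obtain ⟨c, hc⟩ : b - a ∣ F.card.factorial :=
      Nat.dvd_factorial (by omega) (by omega)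
    refine ⟨fun j => c * (z b - z a) j, ?_⟩
    have h2 := Submodule.smul_mem _ (c : ℝ) h1
    convert h2 using 1
    funext j
    simp only [Pi.sub_apply, Pi.smul_apply, smul_eq_mul, iv, hc, Nat.cast_mul, Int.cast_mul,
      Int.cast_natCast]
    ring
  rcases lt_or_gt_of_ne hab with h | h
  · exact key a b h (by have := Finset.mem_range.1 hb; omega) hfab
  · exact key b a h (by have := Finset.mem_range.1 ha; omega) hfab.symm

omit hcl in
/-- separation from the positive orthant -/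
theorem exists_functional (D : Submodule ℝ (Fin n → ℝ)) (hD : ¬ ∃ m ∈ D, ∀ j, 0 < m j) :
    ∃ a : Fin n → ℝ, (∀ j, 0 ≤ a j) ∧ (∃ j, 0 < a j) ∧ ∀ m ∈ D, ∑ j, a j * m j = 0 := by
  have hs2 : IsOpen (Set.pi univ fun _ : Fin n => Ioi (0 : ℝ)) :=
    isOpen_set_pi finite_univ fun _ _ => isOpen_Ioi
  have hs1 : Convex ℝ (Set.pi univ fun _ : Fin n => Ioi (0 : ℝ)) :=
    convex_pi fun _ _ => convex_Ioi 0
  have hdis : Disjoint (Set.pi univ fun _ : Fin n => Ioi (0 : ℝ)) (D : Set (Fin n → ℝ)) := by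
    rw [Set.disjoint_left]
    intro m hm hmD
    exact hD ⟨m, hmD, fun j => hm j (mem_univ j)⟩
  obtain ⟨f, u, hfs, hfD⟩ := geometric_hahn_banach_open hs1 hs2 D.convex hdis
  have hu : u ≤ 0 := by simpa using hfD 0 D.zero_mem
  have hf0 : ∀ m ∈ D, f m = 0 := by
    intro m hm
    by_contra hne
    have := hfD (((u - 1) / f m) • m) (D.smul_mem _ hm)
    rw [map_smul, smul_eq_mul, div_mul_cancel₀ _ hne] at this
    linarith
  have hexp : ∀ v : Fin n → ℝ, f v = ∑ j, f (Pi.single j 1) * v j := by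
    intro v
    conv_lhs => rw [pi_eq_sum_univ' v]
    rw [map_sum]
    refine Finset.sum_congr rfl fun j _ => ?_
    rw [map_smul, smul_eq_mul, mul_comm]
  refine ⟨fun j => -f (Pi.single j 1), fun j => ?_, ?_, fun m hm => ?_⟩
  · by_contra hneg
    push Not at hneg
    have hpos : 0 < f (Pi.single j 1) := by linarith
    -- take v = e_j + ε 1
    set c := f (fun _ => 1) with hc
    obtain ⟨ε, hε, hεc⟩ : ∃ ε : ℝ, 0 < ε ∧ 0 < f (Pi.single j 1) + ε * c := by
      refine ⟨f (Pi.single j 1) / (2 * (|c| + 1)), by positivity, ?_⟩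
      have h1 : f (Pi.single j 1) / (2 * (|c| + 1)) * (-c) ≤
          f (Pi.single j 1) / (2 * (|c| + 1)) * (|c| + 1) := by
        refine mul_le_mul_of_nonneg_left ?_ (by positivity)
        linarith [neg_le_abs c]
      have h2 : f (Pi.single j 1) / (2 * (|c| + 1)) * (|c| + 1) = f (Pi.single j 1) / 2 := by
        field_simp
      nlinarith
    have h3 := hfs (Pi.single j 1 + ε • fun _ => 1) (by
      intro i _
      simp only [Pi.add_apply, Pi.smul_apply, smul_eq_mul, mul_one, mem_Ioi]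
      by_cases hij : i = j
      · subst hij; simp; linarith
      · simp [hij, hε])
    rw [map_add, map_smul, smul_eq_mul] at h3
    linarith
  · by_contra hno
    push Not at hno
    have h1 := hfs (fun _ => 1) (fun i _ => by simp)
    rw [hexp] at h1
    have h2 : 0 ≤ ∑ j, f (Pi.single j 1) * (1 : ℝ) :=
      Finset.sum_nonneg fun j _ => by
        have := hno j
        linarith
    linarith
  · have := hf0 m hm
    rw [hexp] at this
    simp only [neg_mul, Finset.sum_neg_distrib, this, neg_zero]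

include hcl in
/-- the real form of the theorem -/
theorem exists_pos_mem (hinv : ∀ b : Fin n → ℕ, b ≠ 0 → ∃ y ∈ G, ∀ k : ℤ,
    ∑ j, (b j : ℝ) * y j ≠ k) : ∃ m ∈ lieD G hadd hint, ∀ j, 0 < m j := by
  by_contra hcon
  obtain ⟨a, ha0, ⟨j₀, hj₀⟩, haD⟩ := exists_functional _ hcon
  obtain ⟨R, hR⟩ := exists_bound hcl hadd hint
  obtain ⟨N, hN1, hN⟩ := exists_power hcl hadd hint
  set ε : ℝ := min (a j₀) (1 / (4 * ((n : ℝ) + 1) * (|R| + 1))) with hε
  have hε0 : 0 < ε := lt_min hj₀ (by positivity)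
  have hε1 : ε ≤ a j₀ := min_le_left _ _
  have hε2 : ε ≤ 1 / (4 * ((n : ℝ) + 1) * (|R| + 1)) := min_le_right _ _
  have hε3 : (n : ℝ) * ε * |R| ≤ 1 / 4 := by
    have h1 : (n : ℝ) * ε * |R| ≤ ((n : ℝ) + 1) * ε * (|R| + 1) := by
      have : 0 ≤ |R| := abs_nonneg R
      have hn0 : (0 : ℝ) ≤ n := Nat.cast_nonneg n
      have h2 : (n : ℝ) * ε ≤ ((n : ℝ) + 1) * ε := by nlinarith
      have h3 : (0 : ℝ) ≤ n * ε := by positivity
      exact mul_le_mul h2 (by linarith) this (by positivity)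
    have h4 : ((n : ℝ) + 1) * ε * (|R| + 1) ≤ 1 / 4 := by
      have h5 : ((n : ℝ) + 1) * (1 / (4 * ((n : ℝ) + 1) * (|R| + 1))) * (|R| + 1) = 1 / 4 := by
        field_simp
      rw [← h5]
      gcongr
    linarith
  have hε4 : ε < 1 := by
    refine hε2.trans_lt ?_
    rw [div_lt_one (by positivity)]
    have hn0 : (0 : ℝ) ≤ n := Nat.cast_nonneg n
    have hR0 : 0 ≤ |R| := abs_nonneg R
    nlinarith [mul_nonneg hn0 hR0]
  obtain ⟨k, hk1, z, hz⟩ := exists_approx a hε0
  have hzj : ∀ j, |(k : ℝ) * a j - z j| < ε := by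
    intro j
    have := (norm_le_pi_norm ((k : ℝ) • a - iv z) j).trans_lt hz
    simpa [iv, Real.norm_eq_abs] using this
  have hk1' : (1 : ℝ) ≤ k := by exact_mod_cast hk1
  have hz0 : ∀ j, 0 ≤ z j := by
    intro j
    have h1 := (abs_lt.1 (hzj j)).2
    have h2 : 0 ≤ (k : ℝ) * a j := mul_nonneg (by linarith) (ha0 j)
    have h3 : (-1 : ℝ) < z j := by linarith
    have h4 : (-1 : ℤ) < z j := by exact_mod_cast h3
    omega
  have hz1 : 0 < z j₀ := by
    have h1 := (abs_lt.1 (hzj j₀)).2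
    have h2 : a j₀ ≤ (k : ℝ) * a j₀ := by nlinarith
    have h3 : (0 : ℝ) < z j₀ := by linarith
    exact_mod_cast h3
  -- the pairing with D is nearly integral
  have hnear : ∀ m ∈ lieD G hadd hint, ∃ w : ℤ, |∑ j, (z j : ℝ) * m j - w| ≤ 1 / 4 := by
    intro m hm
    obtain ⟨m', hm', hmR, w, hw⟩ := hR m hm
    refine ⟨∑ j, z j * w j, ?_⟩
    have h1 : ∑ j, (z j : ℝ) * m j - ((∑ j, z j * w j : ℤ) : ℝ) =
        -∑ j, ((k : ℝ) * a j - z j) * m' j := by
      have h2 : ∑ j, ((k : ℝ) * a j - z j) * m' j = -∑ j, (z j : ℝ) * m' j := by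
        have h3 : ∑ j, ((k : ℝ) * a j - z j) * m' j =
            (k : ℝ) * ∑ j, a j * m' j - ∑ j, (z j : ℝ) * m' j := by
          rw [Finset.mul_sum, ← Finset.sum_sub_distrib]
          exact Finset.sum_congr rfl fun j _ => by ring
        rw [h3, haD m' hm']
        ring
      rw [h2, neg_neg, hw]
      push_cast
      rw [← Finset.sum_sub_distrib]
      exact Finset.sum_congr rfl fun j _ => by simp only [Pi.add_apply, iv]; ring
    rw [h1, abs_neg]
    have hRn : 0 ≤ R := (norm_nonneg _).trans hmR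
    calc |∑ j, ((k : ℝ) * a j - z j) * m' j| ≤ ∑ j, |((k : ℝ) * a j - z j) * m' j| :=
          Finset.abs_sum_le_sum_abs _ _
      _ ≤ ∑ _j : Fin n, ε * |R| := by
          refine Finset.sum_le_sum fun j _ => ?_
          rw [abs_mul]
          refine mul_le_mul (hzj j).le ?_ (abs_nonneg _) hε0.le
          have := (norm_le_pi_norm m' j).trans hmR
          rw [Real.norm_eq_abs] at this
          exact this.trans (le_abs_self R)
      _ = (n : ℝ) * ε * |R| := by simp; ring
      _ ≤ 1 / 4 := hε3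
  have hperp : ∀ m ∈ lieD G hadd hint, ∑ j, (z j : ℝ) * m j = 0 := by
    intro m hm
    by_contra hne
    obtain ⟨c, hc⟩ : ∃ c : ℝ, c = ∑ j, (z j : ℝ) * m j := ⟨_, rfl⟩
    rw [← hc] at hne
    obtain ⟨w, hw⟩ := hnear ((1 / (2 * c)) • m) (Submodule.smul_mem _ _ hm)
    have h1 : ∑ j, (z j : ℝ) * ((1 / (2 * c)) • m) j = 1 / 2 := by
      have h2 : ∑ j, (z j : ℝ) * ((1 / (2 * c)) • m) j = (1 / (2 * c)) * c := by
        conv_rhs => rw [hc, Finset.mul_sum, ← hc]
        exact Finset.sum_congr rfl fun j _ => by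
          simp only [Pi.smul_apply, smul_eq_mul]; ring
      rw [h2]
      field_simp
    rw [h1, abs_le] at hw
    have h3 : (w : ℝ) < 1 := by linarith [hw.1]
    have h4 : (0 : ℝ) < w := by linarith [hw.2]
    have h5 : w < 1 := by exact_mod_cast h3
    have h6 : 0 < w := by exact_mod_cast h4
    omega
  -- the contradiction
  have hb : (fun j => N * (z j).toNat) ≠ (0 : Fin n → ℕ) := by
    intro h
    have h1 := congrFun h j₀
    simp only [Pi.zero_apply, mul_eq_zero] at h1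
    omega
  obtain ⟨y, hyG, hy⟩ := hinv _ hb
  obtain ⟨w, hw⟩ := hN y hyG
  refine hy (∑ j, z j * w j) ?_
  have h1 := hperp _ hw
  have h2 : ∀ j, ((z j).toNat : ℝ) = (z j : ℝ) := fun j => by
    have := Int.toNat_of_nonneg (hz0 j)
    exact_mod_cast this
  have h3 : ∑ j, (z j : ℝ) * ((N : ℝ) • y - iv w) j =
      ∑ j, ((N * (z j).toNat : ℕ) : ℝ) * y j - ((∑ j, z j * w j : ℤ) : ℝ) := by
    push_cast
    rw [← Finset.sum_sub_distrib]
    exact Finset.sum_congr rfl fun j _ => by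
      rw [h2]
      simp only [Pi.sub_apply, Pi.smul_apply, smul_eq_mul, iv]
      ring
  rw [h3] at h1
  linarith

end group

/-- **Tori without invariant monomials.**  A multiplicative submonoid `S` of the torus, without a
nonconstant monomial `x ^ a` which is `1` on `S`, has in its closure a one-parameter group with all
weights positive. -/
theorem exists_pos_flow {n : ℕ} {S : Set (Fin n → ℂ)} (hn : ∀ x ∈ S, ∀ j, ‖x j‖ = 1)
    (h1 : (1 : Fin n → ℂ) ∈ S) (hmul : ∀ x ∈ S, ∀ y ∈ S, x * y ∈ S)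
    (hinv : ∀ a : Fin n → ℕ, a ≠ 0 → ∃ x ∈ S, ∏ j, x j ^ a j ≠ 1) :
    ∃ m : Fin n → ℝ, (∀ j, 0 < m j) ∧
      ∀ t : ℝ, (fun j => Complex.exp (t * m j * Complex.I)) ∈ closure S := by
  set ex : (Fin n → ℝ) → (Fin n → ℂ) := fun y j => Complex.exp (2 * Real.pi * y j * Complex.I)
    with hex
  have hexc : Continuous ex := by fun_prop
  set G : Set (Fin n → ℝ) := ex ⁻¹' closure S with hG
  have hcl : IsClosed G := isClosed_closure.preimage hexc
  have hmulc : ∀ x ∈ closure S, ∀ y ∈ closure S, x * y ∈ closure S := fun x hx y hy =>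
    map_mem_closure₂ continuous_mul hx hy hmul
  have hadd : ∀ x ∈ G, ∀ y ∈ G, x + y ∈ G := by
    intro x hx y hy
    have h2 : ex (x + y) = ex x * ex y := by
      funext j
      simp only [hex, Pi.mul_apply, Pi.add_apply]
      rw [← Complex.exp_add]
      congr 1
      push_cast
      ring
    show ex (x + y) ∈ closure S
    rw [h2]
    exact hmulc _ hx _ hy
  have hint : ∀ z : Fin n → ℤ, iv z ∈ G := by
    intro z
    have h2 : ex (iv z) = 1 := by
      funext j
      simp only [hex, iv, Pi.one_apply]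
      rw [Complex.exp_eq_one_iff]
      exact ⟨z j, by push_cast; ring⟩
    show ex (iv z) ∈ closure S
    rw [h2]
    exact subset_closure h1
  obtain ⟨m, hmD, hm⟩ := exists_pos_mem hcl hadd hint (by
    intro b hb
    obtain ⟨x, hxS, hx⟩ := hinv b hb
    have hxe : ∀ j, x j = Complex.exp (2 * Real.pi * ((x j).arg / (2 * Real.pi) : ℝ) *
        Complex.I) := by
      intro j
      have h2 := Complex.norm_mul_exp_arg_mul_I (x j)
      rw [hn x hxS j, Complex.ofReal_one, one_mul] at h2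
      have h3 : (2 * Real.pi * ((x j).arg / (2 * Real.pi) : ℝ) * Complex.I : ℂ) =
          (x j).arg * Complex.I := by
        have hpi : (Real.pi : ℂ) ≠ 0 := Complex.ofReal_ne_zero.2 Real.pi_ne_zero
        push_cast
        field_simp
      rw [h3, h2]
    refine ⟨fun j => (x j).arg / (2 * Real.pi), ?_, fun k hk => hx ?_⟩
    · show ex _ ∈ closure S
      have h2 : ex (fun j => (x j).arg / (2 * Real.pi)) = x := by
        funext j
        exact (hxe j).symm
      rw [h2]
      exact subset_closure hxS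
    · have h2 : ∏ j, x j ^ b j = Complex.exp (2 * Real.pi *
          ((∑ j, (b j : ℝ) * ((x j).arg / (2 * Real.pi)) : ℝ) : ℂ) * Complex.I) := by
        rw [Complex.ofReal_sum, Finset.mul_sum, Finset.sum_mul, Complex.exp_sum]
        refine Finset.prod_congr rfl fun j _ => ?_
        conv_lhs => rw [hxe j]
        rw [← Complex.exp_nat_mul]
        congr 1
        push_cast
        ring
      rw [h2, hk, Complex.exp_eq_one_iff]
      exact ⟨k, by push_cast; ring⟩)
  refine ⟨fun j => 2 * Real.pi * m j, fun j => by have := hm j; positivity, fun t => ?_⟩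
  have h2 := (mem_lieD hadd hint).1 hmD t
  have h3 : (fun j => Complex.exp (t * ((2 * Real.pi * m j : ℝ) : ℂ) * Complex.I)) =
      ex (t • m) := by
    funext j
    simp only [hex, Pi.smul_apply, smul_eq_mul]
    congr 1
    push_cast
    ring
  rw [h3]
  exact h2

end Vale.Agent.P253.H445
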