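import Vale.Agent.P097.H407.Hol

/-!
P253: tools for Osgood's theorem on injective holomorphic maps.
-/

open scoped Topology ContDiff
open Set Metric Filter Module

set_option linter.unusedSectionVars false

noncomputable section

namespace Vale.Agent.P253.H445

/-- minimum modulus principle on a disc -/
theorem minmod {g : ℂ → ℂ} {a : ℂ} {r c : ℝ} (hr : 0 < r) (hc : 0 < c)
    (hd : ∀ ζ ∈ closedBall a r, DifferentiableAt ℂ g ζ)
    (hne : ∀ ζ ∈ closedBall a r, g ζ ≠ 0) (hb : ∀ ζ ∈ sphere a r, c ≤ ‖g ζ‖)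
    {ζ : ℂ} (hζ : ζ ∈ closedBall a r) : c ≤ ‖g ζ‖ := by
  have h1 : ‖(g ζ)⁻¹‖ ≤ c⁻¹ := by
    refine Complex.norm_le_of_forall_mem_frontier_norm_le (f := fun z => (g z)⁻¹)
      (U := ball a r) isBounded_ball ?_ ?_ ?_
    · exact DifferentiableOn.diffContOnCl_ball (U := closedBall a r)
        (fun z hz => ((hd z hz).inv (hne z hz)).differentiableWithinAt) subset_rfl
    · intro z hz
      rw [frontier_ball a hr.ne'] at hz
      rw [norm_inv]
      exact inv_anti₀ hc (hb z hz)
    · rwa [closure_ball a hr.ne']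
  rw [norm_inv] at h1
  exact (inv_le_inv₀ (norm_pos_iff.2 (hne ζ hζ)) hc).1 h1

theorem analyticAt_ev {F F' : Type*} [NormedAddCommGroup F] [NormedSpace ℂ F]
    [FiniteDimensional ℂ F] [NormedAddCommGroup F'] [NormedSpace ℂ F'] [CompleteSpace F']
    {f : F → F'} {x : F} (hf : ∀ᶠ z in 𝓝 x, DifferentiableAt ℂ f z) : AnalyticAt ℂ f x := by
  obtain ⟨U, hU, hUo, hxU⟩ := _root_.eventually_nhds_iff.1 hf
  exact Vale.Agent.P097.Hol.analyticAt_of_differentiableOn hUo
    (fun z hz => (hU z hz).differentiableWithinAt) hxU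

/-- a locally injective function of one variable has nonzero derivative -/
theorem one_dim {g : ℂ → ℂ} {a : ℂ} (hg : ∀ᶠ z in 𝓝 a, DifferentiableAt ℂ g z)
    (hinj : ∃ V ∈ 𝓝 a, InjOn g V) : deriv g a ≠ 0 := by
  intro h0
  obtain ⟨V, hV, hVi⟩ := hinj
  obtain ⟨R, hR, hball⟩ := Metric.eventually_nhds_iff_ball.1 (hg.and hV)
  set r := R / 2 with hr
  have hr0 : 0 < r := by positivity
  have hrR : closedBall a r ⊆ ball a R := closedBall_subset_ball (by rw [hr]; linarith)
  have hdO : DifferentiableOn ℂ g (ball a R) := fun z hz => (hball z hz).1.differentiableWithinAt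
  have hgan : AnalyticAt ℂ g a := hdO.analyticAt (ball_mem_nhds a hR)
  -- the difference quotient
  have hds : ∀ w ∈ ball a R, DifferentiableOn ℂ (dslope g w) (ball a R) := fun w hw =>
    (Complex.differentiableOn_dslope (isOpen_ball.mem_nhds hw)).2 hdO
  have hne : ∀ w ∈ ball a R, ∀ z ∈ ball a R, z ≠ w → dslope g w z ≠ 0 := by
    intro w hw z hz hzw
    rw [dslope_of_ne _ hzw, slope_def_field]
    refine div_ne_zero (sub_ne_zero.2 fun h => hzw ?_) (sub_ne_zero.2 hzw)
    exact hVi (hball z hz).2 (hball w hw).2 h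
  have haR : a ∈ ball a R := mem_ball_self hR
  obtain ⟨z₁, hz₁, hmin⟩ := (isCompact_sphere a r).exists_isMinOn
    (NormedSpace.sphere_nonempty.2 hr0.le)
    (((hds a haR).continuousOn.mono (sphere_subset_closedBall.trans hrR)).norm)
  set c := ‖dslope g a z₁‖ with hc
  have hsne : ∀ z ∈ sphere a r, z ≠ a := fun z hz h => by
    rw [h, mem_sphere, dist_self] at hz
    exact hr0.ne hz
  have hc0 : 0 < c := norm_pos_iff.2 (hne a haR z₁ (hrR (sphere_subset_closedBall hz₁))
    (hsne z₁ hz₁))
  have hlow : ∀ᶠ w in 𝓝 a, ∀ z ∈ sphere a r, c / 2 < ‖(z - w)⁻¹ * (g z - g w)‖ := by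
    refine (isCompact_sphere a r).eventually_forall_of_forall_eventually
      (P := fun w z => c / 2 < ‖(z - w)⁻¹ * (g z - g w)‖) fun z hz => ?_
    have hza := hsne z hz
    have hzR : z ∈ ball a R := hrR (sphere_subset_closedBall hz)
    have h1 : ContinuousAt (fun q : ℂ × ℂ => (q.2 - q.1)⁻¹ * (g q.2 - g q.1)) (a, z) := by
      have h2 : ContinuousAt (fun q : ℂ × ℂ => g q.2) (a, z) :=
        ContinuousAt.comp (x := (a, z)) (f := Prod.snd) (g := g)
          (hball z hzR).1.continuousAt continuousAt_snd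
      have h3 : ContinuousAt (fun q : ℂ × ℂ => g q.1) (a, z) :=
        ContinuousAt.comp (x := (a, z)) (f := Prod.fst) (g := g)
          (hball a haR).1.continuousAt continuousAt_fst
      have h4 : ContinuousAt (fun q : ℂ × ℂ => (q.2 - q.1)⁻¹) (a, z) :=
        (continuousAt_snd.sub continuousAt_fst).inv₀ (sub_ne_zero.2 hza)
      exact h4.mul (h2.sub h3)
    have h5 : c / 2 < ‖(z - a)⁻¹ * (g z - g a)‖ := by
      have h6 : c ≤ ‖dslope g a z‖ := hmin hz
      rw [dslope_of_ne _ hza, slope_def_field, div_eq_inv_mul] at h6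
      linarith
    exact h1.norm.eventually (lt_mem_nhds h5)
  -- the derivative does not vanish identically
  have hder : ∀ᶠ w in 𝓝[≠] a, deriv g w ≠ 0 := by
    rcases hgan.deriv.eventually_eq_zero_or_eventually_ne_zero with h | h
    · exfalso
      obtain ⟨s, hs, hsb⟩ := Metric.eventually_nhds_iff_ball.1 (h.and (ball_mem_nhds a hR))
      have h1 : ∀ z ∈ ball a s, g z = g a := by
        intro z hz
        have h2 := (convex_ball a s).norm_image_sub_le_of_norm_fderiv_le (𝕜 := ℂ) (f := g)
          (C := 0) (x := a) (y := z) (fun w hw => (hball w (hsb w hw).2).1)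
          (fun w hw => by
            have h3 : fderiv ℂ g w = 0 := by
              ext
              simpa using (hsb w hw).1
            rw [h3, norm_zero]) (mem_ball_self hs) hz
        rw [zero_mul] at h2
        exact sub_eq_zero.1 (norm_le_zero_iff.1 h2)
      have h4 : a + (s / 2 : ℝ) ∈ ball a s := by
        rw [mem_ball, dist_eq_norm, add_sub_cancel_left, Complex.norm_real,
          Real.norm_of_nonneg (by positivity)]
        linarith
      have h5 := hVi (hball _ (hsb _ h4).2).2 (hball a haR).2 (h1 _ h4)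
      have h6 : ((s / 2 : ℝ) : ℂ) = 0 := by simpa using h5
      rw [Complex.ofReal_eq_zero] at h6
      linarith
    · exact h
  have hlim : Tendsto (fun w => ‖slope g a w‖) (𝓝[≠] a) (𝓝 0) := by
    have h1 := (hasDerivAt_iff_tendsto_slope.1 (hball a haR).1.hasDerivAt).norm
    rwa [h0, norm_zero] at h1
  have hfin : ∀ᶠ w in 𝓝[≠] a, False := by
    filter_upwards [hder, hlim.eventually (gt_mem_nhds (show (0:ℝ) < c / 2 by positivity)),
      nhdsWithin_le_nhds hlow, nhdsWithin_le_nhds (ball_mem_nhds a hr0), self_mem_nhdsWithin]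
      with w h1 h2 h3 h4 h5
    have hwR : w ∈ ball a R := hrR (ball_subset_closedBall h4)
    have hwa : w ≠ a := h5
    have h6 := minmod (g := dslope g w) (a := a) (r := r) (c := c / 2) hr0 (by positivity)
      (fun z hz => (hds w hwR).differentiableAt (isOpen_ball.mem_nhds (hrR hz)))
      (fun z hz => by
        rcases eq_or_ne z w with rfl | hzw
        · rwa [dslope_same]
        · exact hne w hwR z (hrR hz) hzw)
      (fun z hz => by
        have hzw : z ≠ w := fun h => by
          rw [← h, mem_ball] at h4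
          rw [mem_sphere] at hz
          linarith
        have h7 := (h3 z hz).le
        rw [← div_eq_inv_mul] at h7
        rwa [dslope_of_ne _ hzw, slope_def_field])
      (mem_closedBall_self hr0.le)
    rw [dslope_of_ne _ hwa.symm, slope_comm] at h6
    linarith
  exact (NeBot.ne inferInstance) (eventually_false_iff_eq_bot.1 hfin)

section straight

variable {E : Type*} [NormedAddCommGroup E] [NormedSpace ℂ E] [FiniteDimensional ℂ E]

/-- the projection to the kernel of a functional -/
def kerP (D : E →L[ℂ] ℂ) (v : E) (hv : D v = 1) : E →L[ℂ] LinearMap.ker D.toLinearMap :=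
  (ContinuousLinearMap.id ℂ E - D.smulRight v).codRestrict (LinearMap.ker D.toLinearMap)
    (fun x => by simp [hv])

theorem coe_kerP (D : E →L[ℂ] ℂ) (v : E) (hv : D v = 1) (x : E) :
    (kerP D v hv x : E) = x - D x • v := by
  simp [kerP]

theorem kerP_of_mem (D : E →L[ℂ] ℂ) (v : E) (hv : D v = 1) {x : E} (hx : D x = 0) :
    (kerP D v hv x : E) = x := by
  rw [coe_kerP, hx, zero_smul, sub_zero]

/-- straightening of a holomorphic function with nonzero derivative -/
theorem straight {φ : E → ℂ} {a : E} (hφ : ∀ᶠ z in 𝓝 a, DifferentiableAt ℂ φ z)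
    {D : E →L[ℂ] ℂ} (hD : HasFDerivAt φ D a) {v : E} (hv : D v = 1) :
    ∃ T : OpenPartialHomeomorph E (ℂ × LinearMap.ker D.toLinearMap),
      a ∈ T.source ∧ T a = 0 ∧ (∀ z, (T z).1 = φ z - φ a) ∧
      (∀ᶠ y in 𝓝 (0 : ℂ × LinearMap.ker D.toLinearMap), DifferentiableAt ℂ T.symm y) ∧
      HasFDerivAt (fun w : LinearMap.ker D.toLinearMap => T.symm (0, w))
        (LinearMap.ker D.toLinearMap).subtypeL 0 := by
  have hCE : CompleteSpace E := FiniteDimensional.complete ℂ E
  set K := LinearMap.ker D.toLinearMap with hK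
  set π : E →L[ℂ] K := kerP D v hv with hπ
  set Ψ : E → ℂ × K := fun z => (φ z - φ a, π (z - a)) with hΨ
  have hφa : AnalyticAt ℂ φ a := analyticAt_ev hφ
  have hΨc : ContDiffAt ℂ 1 Ψ a := by
    have h1 : ContDiffAt ℂ 1 φ a := hφa.contDiffAt
    exact (h1.sub contDiffAt_const).prodMk
      (π.contDiff.contDiffAt.comp a (contDiffAt_id.sub contDiffAt_const))
  set inv : ℂ × K →L[ℂ] E := (ContinuousLinearMap.fst ℂ ℂ K).smulRight v +
    K.subtypeL.comp (ContinuousLinearMap.snd ℂ ℂ K) with hinv
  have hinva : ∀ y : ℂ × K, inv y = y.1 • v + (y.2 : E) := fun y => by simp [hinv]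
  have hDK : ∀ w : K, D (w : E) = 0 := fun w => w.2
  set A : E ≃L[ℂ] ℂ × K := ContinuousLinearEquiv.equivOfInverse (D.prod π) inv
    (fun x => by
      rw [hinva]
      simp only [ContinuousLinearMap.prod_apply]
      rw [hπ, coe_kerP]
      abel)
    (fun y => by
      rw [ContinuousLinearMap.prod_apply, hinva]
      refine Prod.ext ?_ (Subtype.ext ?_)
      · simp [hv, hDK]
      · rw [hπ, coe_kerP]
        simp [hv, hDK]) with hA
  have hAa : ∀ x, A x = (D x, π x) := fun x => rfl
  have hAs : ∀ y : ℂ × K, A.symm y = y.1 • v + (y.2 : E) := fun y => hinva y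
  have hΨ' : HasFDerivAt Ψ (A : E →L[ℂ] ℂ × K) a := by
    have h1 : HasFDerivAt (fun z => φ z - φ a) D a := hD.sub_const _
    have h2 : HasFDerivAt (fun z => π (z - a)) π a := by
      have h3 := π.hasFDerivAt (x := a - a)
      have h4 := HasFDerivAt.comp a (g := π) (f := fun z => z - a) h3
        ((hasFDerivAt_id a).sub_const a)
      rwa [ContinuousLinearMap.comp_id] at h4
    exact h1.prodMk h2
  set T := hΨc.toOpenPartialHomeomorph Ψ hΨ' one_ne_zero with hT
  have hTc : ∀ z, T z = Ψ z := fun z => rfl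
  have has : a ∈ T.source := hΨc.mem_toOpenPartialHomeomorph_source hΨ' one_ne_zero
  have hTa : T a = 0 := by
    rw [hTc]
    simp [hΨ]
  have h0t : (0 : ℂ × K) ∈ T.target := by
    rw [← hTa]
    exact T.map_source has
  have hTs0 : T.symm 0 = a := by
    rw [← hTa]
    exact T.left_inv has
  refine ⟨T, has, hTa, fun z => rfl, ?_, ?_⟩
  · have h1 := hΨc.to_localInverse hΨ' one_ne_zero
    have h2 : Ψ a = 0 := hTa
    rw [h2] at h1
    have h3 : ∀ᶠ y in 𝓝 (0 : ℂ × K), ContDiffAt ℂ 1 T.symm y := h1.eventually (by simp)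
    filter_upwards [h3] with y hy
    exact hy.differentiableAt (by simp)
  · have h1 : HasFDerivAt T.symm (A.symm : ℂ × K →L[ℂ] E) 0 :=
      T.hasFDerivAt_symm h0t (by rw [hTs0]; exact hΨ')
    have h2 : HasFDerivAt (fun w : K => ((0 : ℂ), w)) (ContinuousLinearMap.inr ℂ ℂ K) 0 :=
      (ContinuousLinearMap.inr ℂ ℂ K).hasFDerivAt
    have h3 := HasFDerivAt.comp (0 : K) (g := T.symm) (f := fun w : K => ((0 : ℂ), w)) h1 h2
    have h4 : (A.symm : ℂ × K →L[ℂ] E).comp (ContinuousLinearMap.inr ℂ ℂ K) = K.subtypeL := by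
      ext w
      simp [hAs]
    rwa [h4] at h3

end straight

end Vale.Agent.P253.H445
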